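import Mathlib
import Vale.Agent.Lib.P048.Extremal

namespace Vale.Agent.Results.P048.ExtremalRigid

/-- If a graph with at least `(m-1)(n-1)+1` vertices and no independent set of `n` vertices
contains `n-1` pairwise disjoint cliques of order `m-1`, then it contains a cycle of length
exactly `m` (for `m ≥ n`, `m ≥ 4`). -/
theorem result {V : Type} [Fintype V] (G : SimpleGraph V) (m n : ℕ)
    (hmn : n ≤ m) (hm : 4 ≤ m)
    (hcard : (m - 1) * (n - 1) + 1 ≤ Fintype.card V)
    (hα : ∀ s : Finset V, G.IsIndepSet (s : Set V) → s.card < n)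
    (Q : Fin (n - 1) → Finset V) (hQ : ∀ i, G.IsNClique (m - 1) (Q i))
    (hdisj : ∀ i j, i ≠ j → Disjoint (Q i) (Q j)) :
    ∃ (v : V) (p : G.Walk v v), p.IsCycle ∧ p.length = m :=
  Vale.Agent.Lib.P048.extremal_not_extendable G m n hmn hm hcard hα Q hQ hdisj

end Vale.Agent.Results.P048.ExtremalRigid
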